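import Mathlib

/-!
# Finite-state (automatic) colourings: monochromatic finite sums and products

Helper development for problem P059.  For a finite monoid `Mo` and a digit map `μ : ℕ → Mo`
we construct a strictly increasing sequence `a : ℕ → ℕ` such that the `μ`-value of the
base-`b` digit list of every finite sum and every finite product of distinct terms of the
sequence is one and the same element of `Mo`.
-/

namespace Vale.Agent.H16.Auto

open Finset

section Monoid

variable {Mo : Type*} [Monoid Mo]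

/-- In a finite monoid some positive power of `x` is idempotent. -/
theorem exists_idem_pow [Finite Mo] (x : Mo) : ∃ K : ℕ, 0 < K ∧ x ^ K * x ^ K = x ^ K := by
  obtain ⟨i, j, hij, h⟩ : ∃ i j : ℕ, i < j ∧ x ^ i = x ^ j := by
    have hni : ¬ Function.Injective (fun n : ℕ => x ^ n) := not_injective_infinite_finite _
    simp only [Function.Injective, not_forall] at hni
    obtain ⟨i, j, h, hne⟩ := hni
    rcases lt_or_gt_of_ne hne with h1 | h1
    · exact ⟨i, j, h1, h⟩
    · exact ⟨j, i, h1, h.symm⟩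
  have hp0 : 0 < j - i := Nat.sub_pos_of_lt hij
  have step : ∀ m, i ≤ m → x ^ (m + (j - i)) = x ^ m := by
    intro m hm
    obtain ⟨d, rfl⟩ := Nat.exists_eq_add_of_le hm
    have e : i + d + (j - i) = j + d := by omega
    rw [e, pow_add, pow_add, h]
  have step2 : ∀ q m, i ≤ m → x ^ (m + q * (j - i)) = x ^ m := by
    intro q
    induction q with
    | zero => intro m _; simp
    | succ q ih =>
      intro m hm
      have e : m + (q + 1) * (j - i) = (m + q * (j - i)) + (j - i) := by ring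
      rw [e, step _ (le_trans hm (Nat.le_add_right _ _)), ih m hm]
  refine ⟨(i + 1) * (j - i), Nat.mul_pos (Nat.succ_pos i) hp0, ?_⟩
  rw [← pow_add]
  have hle : i ≤ (i + 1) * (j - i) := by
    calc i ≤ (i + 1) * 1 := by omega
      _ ≤ (i + 1) * (j - i) := Nat.mul_le_mul_left _ hp0
  exact step2 (i + 1) _ hle

theorem pow_idem_mul (x : Mo) (K : ℕ) (h : x ^ K * x ^ K = x ^ K) :
    ∀ m, 0 < m → x ^ (K * m) = x ^ K := by
  intro m hm
  induction m with
  | zero => omega
  | succ m ih =>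
    rcases Nat.eq_zero_or_pos m with rfl | hm'
    · simp
    · rw [Nat.mul_succ, pow_add, ih hm', h]

theorem pow_two_mul_sub_one (x : Mo) (K : ℕ) (hK : 0 < K) (h : x ^ K * x ^ K = x ^ K)
    (m : ℕ) (hm : 0 < m) : x ^ (2 * K * m - 1) = x ^ K * x ^ (K - 1) := by
  have e : 2 * K * m - 1 = K * (2 * m - 1) + (K - 1) := by
    have h1 : 2 * m - 1 + 1 = 2 * m := by omega
    have h2 : K * (2 * m - 1) + K = 2 * K * m := by
      calc K * (2 * m - 1) + K = K * (2 * m - 1 + 1) := by ring
        _ = 2 * K * m := by rw [h1]; ring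
    omega
  rw [e, pow_add, pow_idem_mul x K h (2 * m - 1) (by omega)]

/-- The value in `Mo` of a list of digits: the product of the images of the digits. -/
def val (μ : ℕ → Mo) (l : List ℕ) : Mo := (l.map μ).prod

theorem val_append (μ : ℕ → Mo) (l₁ l₂ : List ℕ) :
    val μ (l₁ ++ l₂) = val μ l₁ * val μ l₂ := by
  simp [val]

theorem val_replicate_zero (μ : ℕ → Mo) (k : ℕ) :
    val μ (List.replicate k 0) = μ 0 ^ k := by
  simp [val]

theorem val_digits_one (μ : ℕ → Mo) (b : ℕ) (hb : 2 ≤ b) :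
    val μ (Nat.digits b 1) = μ 1 := by
  rw [Nat.digits_of_lt b 1 (by omega) (by omega)]
  simp [val]

end Monoid

section Digits

variable {Mo : Type*} [Monoid Mo]

/-- Digit-value of `∑ t ∈ T, b ^ t + b ^ a` where all exponents are positive multiples of
`2 * K` and `a` exceeds every element of `T`. -/
theorem val_digits_top (μ : ℕ → Mo) (b : ℕ) (hb : 2 ≤ b) (K : ℕ) (hK : 0 < K)
    (hidem : μ 0 ^ K * μ 0 ^ K = μ 0 ^ K) (T : Finset ℕ) :
    (∀ t ∈ T, 2 * K ∣ t ∧ 0 < t) → ∀ a, 2 * K ∣ a → 0 < a → (∀ t ∈ T, t < a) →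
      val μ (Nat.digits b (∑ t ∈ T, b ^ t + b ^ a)) =
        μ 0 ^ K * μ 1 * (μ 0 ^ K * μ 0 ^ (K - 1) * μ 1) ^ T.card := by
  induction T using Finset.induction_on_max with
  | empty =>
    intro _ a hda ha _
    obtain ⟨m, rfl⟩ := hda
    have hm : 0 < m := by
      rcases Nat.eq_zero_or_pos m with rfl | h
      · simp at ha
      · exact h
    have e : (∑ t ∈ (∅ : Finset ℕ), b ^ t) + b ^ (2 * K * m) = b ^ (2 * K * m) * 1 := by simp
    rw [e, Nat.digits_base_pow_mul (by omega) (by omega), val_append, val_replicate_zero,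
      val_digits_one μ b hb]
    have e2 : 2 * K * m = K * (2 * m) := by ring
    rw [e2, pow_idem_mul (μ 0) K hidem (2 * m) (by omega)]
    simp
  | insert c S hc ih =>
    intro hT a hda ha hlt
    have hcS : c ∉ S := fun h => lt_irrefl _ (hc c h)
    have hTc : 2 * K ∣ c ∧ 0 < c := hT c (Finset.mem_insert_self c S)
    have hTS : ∀ t ∈ S, 2 * K ∣ t ∧ 0 < t := fun t ht => hT t (Finset.mem_insert_of_mem ht)
    have hca : c < a := hlt c (Finset.mem_insert_self c S)
    have ih' := ih hTS c hTc.1 hTc.2 hc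
    set n := ∑ t ∈ S, b ^ t + b ^ c with hn
    have hsum : ∑ t ∈ insert c S, b ^ t + b ^ a = n + b ^ a := by
      rw [Finset.sum_insert hcS, hn]; ring
    have hSlt : ∑ t ∈ S, b ^ t < b ^ c := Nat.geomSum_lt hb hc
    have hbc : 0 < b ^ c := Nat.pow_pos (by omega)
    have hn1 : b ^ c ≤ n := by rw [hn]; omega
    have hn2 : n < b ^ (c + 1) := by
      have : b ^ (c + 1) = b ^ c * b := pow_succ b c
      have h2 : b ^ c * 2 ≤ b ^ c * b := Nat.mul_le_mul_left _ hb
      rw [hn]; omega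
    have hlen : (Nat.digits b n).length = c + 1 := by
      rw [Nat.length_digits b n (by omega) (by omega), Nat.log_eq_of_pow_le_of_lt_pow hn1 hn2]
    have hdig : Nat.digits b (n + b ^ a) =
        Nat.digits b n ++ List.replicate (a - c - 1) 0 ++ Nat.digits b 1 := by
      have := Nat.digits_append_zeroes_append_digits (b := b) (k := a - c - 1) (m := 1) (n := n)
        (by omega) (by omega)
      rw [this, hlen]
      have e : c + 1 + (a - c - 1) = a := by omega
      rw [e, mul_one]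
    rw [hsum, hdig, val_append, val_append, val_replicate_zero, val_digits_one μ b hb, ih']
    obtain ⟨m, rfl⟩ := hda
    obtain ⟨m', rfl⟩ := hTc.1
    have hmm : m' < m := by
      by_contra hcon
      rw [not_lt] at hcon
      have : 2 * K * m ≤ 2 * K * m' := Nat.mul_le_mul_left _ hcon
      omega
    have e : 2 * K * m - 2 * K * m' - 1 = 2 * K * (m - m') - 1 := by
      rw [Nat.mul_sub]
    rw [e, pow_two_mul_sub_one (μ 0) K hK hidem (m - m') (by omega),
      Finset.card_insert_of_notMem hcS, pow_succ]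
    simp only [mul_assoc]

/-- Digit-value of `∑ t ∈ T, b ^ t` for a nonempty set `T` of positive multiples of `2 * K`. -/
theorem val_digits_sum (μ : ℕ → Mo) (b : ℕ) (hb : 2 ≤ b) (K : ℕ) (hK : 0 < K)
    (hidem : μ 0 ^ K * μ 0 ^ K = μ 0 ^ K) (T : Finset ℕ) (hne : T.Nonempty)
    (hT : ∀ t ∈ T, 2 * K ∣ t ∧ 0 < t) :
    val μ (Nat.digits b (∑ t ∈ T, b ^ t)) =
      μ 0 ^ K * μ 1 * (μ 0 ^ K * μ 0 ^ (K - 1) * μ 1) ^ (T.card - 1) := by
  have hmem : T.max' hne ∈ T := Finset.max'_mem T hne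
  have h := val_digits_top μ b hb K hK hidem (T.erase (T.max' hne))
    (fun t ht => hT t (Finset.mem_of_mem_erase ht)) (T.max' hne) (hT _ hmem).1 (hT _ hmem).2
    (fun t ht => Finset.lt_max'_of_mem_erase_max' T hne ht)
  rw [Finset.sum_erase_add T (fun t => b ^ t) hmem, Finset.card_erase_of_mem hmem] at h
  exact h

/-- If moreover `2 * P` divides the size of `T` and the relevant `P`-th power is idempotent,
the digit-value is a constant independent of `T`. -/
theorem val_digits_good (μ : ℕ → Mo) (b : ℕ) (hb : 2 ≤ b) (K : ℕ) (hK : 0 < K)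
    (hidem : μ 0 ^ K * μ 0 ^ K = μ 0 ^ K) (P : ℕ) (hP : 0 < P)
    (hidem2 : (μ 0 ^ K * μ 0 ^ (K - 1) * μ 1) ^ P * (μ 0 ^ K * μ 0 ^ (K - 1) * μ 1) ^ P =
      (μ 0 ^ K * μ 0 ^ (K - 1) * μ 1) ^ P)
    (T : Finset ℕ) (hne : T.Nonempty) (hT : ∀ t ∈ T, 2 * K ∣ t ∧ 0 < t)
    (hcard : 2 * P ∣ T.card) :
    val μ (Nat.digits b (∑ t ∈ T, b ^ t)) =
      μ 0 ^ K * μ 1 * ((μ 0 ^ K * μ 0 ^ (K - 1) * μ 1) ^ P *
        (μ 0 ^ K * μ 0 ^ (K - 1) * μ 1) ^ (P - 1)) := by
  rw [val_digits_sum μ b hb K hK hidem T hne hT]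
  obtain ⟨m, hm⟩ := hcard
  have hm0 : 0 < m := by
    rcases Nat.eq_zero_or_pos m with rfl | h
    · rw [mul_zero] at hm
      exact absurd (Finset.card_pos.mpr hne) (by omega)
    · exact h
  rw [hm, pow_two_mul_sub_one _ P hP hidem2 m hm0]

end Digits

section Sequence

/-- The exponent block `T i = { 2 * K * ((2 * P + 1) ^ i * j) : 1 ≤ j ≤ 2 * P }`. -/
def blk (K P i : ℕ) : Finset ℕ :=
  (Finset.Icc 1 (2 * P)).image (fun j => 2 * K * ((2 * P + 1) ^ i * j))

/-- The sequence `a i = ∑ t ∈ T i, b ^ t`. -/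
def seq (b K P i : ℕ) : ℕ := ∑ t ∈ blk K P i, b ^ t

theorem mem_blk {K P i t : ℕ} :
    t ∈ blk K P i ↔ ∃ j, 1 ≤ j ∧ j ≤ 2 * P ∧ t = 2 * K * ((2 * P + 1) ^ i * j) := by
  unfold blk
  simp only [Finset.mem_image, Finset.mem_Icc]
  constructor
  · rintro ⟨j, ⟨h1, h2⟩, rfl⟩
    exact ⟨j, h1, h2, rfl⟩
  · rintro ⟨j, h1, h2, rfl⟩
    exact ⟨j, ⟨h1, h2⟩, rfl⟩

theorem card_blk (K P i : ℕ) (hK : 0 < K) : (blk K P i).card = 2 * P := by
  unfold blk
  rw [Finset.card_image_of_injective]
  · simp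
  · intro j j' h
    have h1 : 0 < 2 * K := by omega
    have h2 : 0 < (2 * P + 1) ^ i := Nat.pow_pos (by omega)
    have h3 := Nat.eq_of_mul_eq_mul_left h1 h
    exact Nat.eq_of_mul_eq_mul_left h2 h3

theorem blk_pos {K P i t : ℕ} (hK : 0 < K) (ht : t ∈ blk K P i) : 2 * K ∣ t ∧ 0 < t := by
  obtain ⟨j, h1, _, rfl⟩ := mem_blk.mp ht
  refine ⟨Dvd.intro _ rfl, ?_⟩
  have h2 : 0 < (2 * P + 1) ^ i := Nat.pow_pos (by omega)
  positivity

theorem blk_lower {K P i t : ℕ} (ht : t ∈ blk K P i) : 2 * K * (2 * P + 1) ^ i ≤ t := by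
  obtain ⟨j, h1, _, rfl⟩ := mem_blk.mp ht
  calc 2 * K * (2 * P + 1) ^ i = 2 * K * ((2 * P + 1) ^ i * 1) := by ring
    _ ≤ 2 * K * ((2 * P + 1) ^ i * j) :=
      Nat.mul_le_mul_left _ (Nat.mul_le_mul_left _ h1)

theorem blk_upper {K P i t : ℕ} (ht : t ∈ blk K P i) :
    t ≤ 2 * K * ((2 * P + 1) ^ i * (2 * P)) := by
  obtain ⟨j, _, h2, rfl⟩ := mem_blk.mp ht
  exact Nat.mul_le_mul_left _ (Nat.mul_le_mul_left _ h2)

theorem blk_lt_succ {K P i t : ℕ} (hK : 0 < K) (ht : t ∈ blk K P i) :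
    t < 2 * K * (2 * P + 1) ^ (i + 1) := by
  have h := blk_upper ht
  have h2 : 0 < (2 * P + 1) ^ i := Nat.pow_pos (by omega)
  have e : 2 * K * (2 * P + 1) ^ (i + 1) =
      2 * K * ((2 * P + 1) ^ i * (2 * P)) + 2 * K * (2 * P + 1) ^ i := by ring
  have h3 : 0 < 2 * K * (2 * P + 1) ^ i := by positivity
  omega

theorem pow_mono_D (P : ℕ) {i m : ℕ} (h : i ≤ m) : (2 * P + 1) ^ i ≤ (2 * P + 1) ^ m :=
  Nat.pow_le_pow_right (by omega) h

/-- Sums of distinct terms of the sequence are sums of distinct powers of `b` whose exponents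
form a set of positive multiples of `2 * K` of size `2 * P * B.card`. -/
theorem sum_seq_eq (b K P : ℕ) (hK : 0 < K) (B : Finset ℕ) :
    ∃ F : Finset ℕ, (∀ s ∈ F, 2 * K ∣ s ∧ 0 < s) ∧ F.card = 2 * P * B.card ∧
      (∀ m, (∀ i ∈ B, i < m) → ∀ s ∈ F, s < 2 * K * (2 * P + 1) ^ m) ∧
      ∑ i ∈ B, seq b K P i = ∑ s ∈ F, b ^ s := by
  induction B using Finset.induction_on_max with
  | empty => exact ⟨∅, by simp, by simp, by simp, by simp⟩
  | insert m B' hm ih =>
    obtain ⟨F', hF1, hF2, hF3, hF4⟩ := ih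
    have hmB : m ∉ B' := fun h => lt_irrefl _ (hm m h)
    have hdisj : Disjoint (blk K P m) F' := by
      rw [Finset.disjoint_left]
      intro t ht htF
      have h1 := blk_lower ht
      have h2 := hF3 m hm t htF
      omega
    refine ⟨blk K P m ∪ F', ?_, ?_, ?_, ?_⟩
    · intro s hs
      rcases Finset.mem_union.mp hs with h | h
      · exact blk_pos hK h
      · exact hF1 s h
    · rw [Finset.card_union_of_disjoint hdisj, card_blk K P m hK, hF2,
        Finset.card_insert_of_notMem hmB]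
      ring
    · intro m' hm' s hs
      have hmm' : m < m' := hm' m (Finset.mem_insert_self m B')
      rcases Finset.mem_union.mp hs with h | h
      · have h1 := blk_lt_succ hK h
        have h2 : 2 * K * (2 * P + 1) ^ (m + 1) ≤ 2 * K * (2 * P + 1) ^ m' :=
          Nat.mul_le_mul_left _ (pow_mono_D P hmm')
        omega
      · have h1 := hF3 m hm s h
        have h2 : 2 * K * (2 * P + 1) ^ m ≤ 2 * K * (2 * P + 1) ^ m' :=
          Nat.mul_le_mul_left _ (pow_mono_D P hmm'.le)
        omega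
    · rw [Finset.sum_insert hmB, hF4, Finset.sum_union hdisj]
      rfl

/-- Products of distinct terms of the sequence are sums of distinct powers of `b` whose
exponents form a set of multiples of `2 * K` of size `(2 * P) ^ B.card`. -/
theorem prod_seq_eq (b K P : ℕ) (hK : 0 < K) (B : Finset ℕ) :
    ∃ E : Finset ℕ, (∀ s ∈ E, 2 * K ∣ s) ∧ (B.Nonempty → ∀ s ∈ E, 0 < s) ∧
      E.card = (2 * P) ^ B.card ∧
      (∀ m, (∀ i ∈ B, i < m) → ∀ s ∈ E, s + 2 * K ≤ 2 * K * (2 * P + 1) ^ m) ∧
      ∏ i ∈ B, seq b K P i = ∑ s ∈ E, b ^ s := by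
  induction B using Finset.induction_on_max with
  | empty =>
    refine ⟨{0}, by simp, by simp, by simp, ?_, by simp⟩
    intro m _ s hs
    rw [Finset.mem_singleton] at hs
    subst hs
    have h2 : 0 < (2 * P + 1) ^ m := Nat.pow_pos (by omega)
    have : 2 * K * 1 ≤ 2 * K * (2 * P + 1) ^ m := Nat.mul_le_mul_left _ h2
    omega
  | insert m B' hm ih =>
    obtain ⟨E', hE1, _, hE3, hE4, hE5⟩ := ih
    have hmB : m ∉ B' := fun h => lt_irrefl _ (hm m h)
    have hinj : Set.InjOn (fun p : ℕ × ℕ => p.1 + p.2) (↑(blk K P m ×ˢ E') : Set (ℕ × ℕ)) := by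
      rintro ⟨t, s⟩ hp ⟨t', s'⟩ hp' heq
      simp only [Finset.coe_product, Set.mem_prod, Finset.mem_coe] at hp hp'
      simp only at heq
      obtain ⟨j, _, _, rfl⟩ := mem_blk.mp hp.1
      obtain ⟨j', _, _, rfl⟩ := mem_blk.mp hp'.1
      have hs := hE4 m hm s hp.2
      have hs' := hE4 m hm s' hp'.2
      have key : ∀ a a' : ℕ, a < a' →
          2 * K * ((2 * P + 1) ^ m * a) + 2 * K * (2 * P + 1) ^ m ≤
            2 * K * ((2 * P + 1) ^ m * a') := by
        intro a a' h
        calc 2 * K * ((2 * P + 1) ^ m * a) + 2 * K * (2 * P + 1) ^ m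
            = 2 * K * ((2 * P + 1) ^ m * (a + 1)) := by ring
          _ ≤ 2 * K * ((2 * P + 1) ^ m * a') :=
            Nat.mul_le_mul_left _ (Nat.mul_le_mul_left _ h)
      have hjj : j = j' := by
        rcases lt_trichotomy j j' with h | h | h
        · have := key j j' h
          omega
        · exact h
        · have := key j' j h
          omega
      subst hjj
      have : s = s' := by omega
      rw [this]
    refine ⟨(blk K P m ×ˢ E').image (fun p : ℕ × ℕ => p.1 + p.2), ?_, ?_, ?_, ?_, ?_⟩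
    · intro x hx
      obtain ⟨⟨t, s⟩, hp, rfl⟩ := Finset.mem_image.mp hx
      rw [Finset.mem_product] at hp
      exact dvd_add (blk_pos hK hp.1).1 (hE1 s hp.2)
    · intro _ x hx
      obtain ⟨⟨t, s⟩, hp, rfl⟩ := Finset.mem_image.mp hx
      rw [Finset.mem_product] at hp
      have := (blk_pos hK hp.1).2
      simp only
      omega
    · rw [Finset.card_image_of_injOn hinj, Finset.card_product, card_blk K P m hK, hE3,
        Finset.card_insert_of_notMem hmB, pow_succ]
      ring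
    · intro m' hm' x hx
      have hmm' : m < m' := hm' m (Finset.mem_insert_self m B')
      obtain ⟨⟨t, s⟩, hp, rfl⟩ := Finset.mem_image.mp hx
      rw [Finset.mem_product] at hp
      have h1 := blk_upper hp.1
      have h2 := hE4 m hm s hp.2
      have h3 : 2 * K * (2 * P + 1) ^ (m + 1) ≤ 2 * K * (2 * P + 1) ^ m' :=
        Nat.mul_le_mul_left _ (pow_mono_D P hmm')
      have e : 2 * K * (2 * P + 1) ^ (m + 1) =
          2 * K * ((2 * P + 1) ^ m * (2 * P)) + 2 * K * (2 * P + 1) ^ m := by ring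
      simp only
      omega
    · rw [Finset.prod_insert hmB, hE5, Finset.sum_image hinj]
      unfold seq
      rw [Finset.sum_mul_sum, Finset.sum_product]
      refine Finset.sum_congr rfl (fun t _ => Finset.sum_congr rfl (fun s _ => ?_))
      rw [pow_add]

end Sequence

section Core

variable {Mo : Type*} [Monoid Mo]

theorem seq_pos (b K P i : ℕ) (hb : 2 ≤ b) (hP : 0 < P) : 1 ≤ seq b K P i := by
  unfold seq
  have hmem : 2 * K * ((2 * P + 1) ^ i * 1) ∈ blk K P i :=
    mem_blk.mpr ⟨1, le_refl 1, by omega, rfl⟩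
  have h1 : b ^ (2 * K * ((2 * P + 1) ^ i * 1)) ≤ ∑ t ∈ blk K P i, b ^ t :=
    Finset.single_le_sum (f := fun t => b ^ t) (fun _ _ => Nat.zero_le _) hmem
  have h2 : 0 < b ^ (2 * K * ((2 * P + 1) ^ i * 1)) := Nat.pow_pos (by omega)
  omega

theorem seq_strictMono (b K P : ℕ) (hb : 2 ≤ b) (hK : 0 < K) (hP : 0 < P) :
    StrictMono (seq b K P) := by
  apply strictMono_nat_of_lt_succ
  intro i
  have h1 : seq b K P i < b ^ (2 * K * (2 * P + 1) ^ (i + 1)) :=
    Nat.geomSum_lt hb (fun t ht => blk_lt_succ hK ht)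
  have hmem : 2 * K * ((2 * P + 1) ^ (i + 1) * 1) ∈ blk K P (i + 1) :=
    mem_blk.mpr ⟨1, le_refl 1, by omega, rfl⟩
  have h2 : b ^ (2 * K * ((2 * P + 1) ^ (i + 1) * 1)) ≤ ∑ t ∈ blk K P (i + 1), b ^ t :=
    Finset.single_le_sum (f := fun t => b ^ t) (fun _ _ => Nat.zero_le _) hmem
  rw [mul_one] at h2
  exact lt_of_lt_of_le h1 h2

/-- Core statement: for a finite monoid and any digit map there is a strictly increasing
sequence of positive integers all of whose finite sums and products of distinct terms have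
base-`b` digit lists with one and the same value in the monoid. -/
theorem core [Finite Mo] (μ : ℕ → Mo) (b : ℕ) (hb : 2 ≤ b) :
    ∃ (a : ℕ → ℕ) (m₀ : Mo), StrictMono a ∧ (∀ i, 1 ≤ a i) ∧
      ∀ B : Finset ℕ, B.Nonempty →
        val μ (Nat.digits b (∑ i ∈ B, a i)) = m₀ ∧ val μ (Nat.digits b (∏ i ∈ B, a i)) = m₀ := by
  obtain ⟨K, hK, hidem⟩ := exists_idem_pow (μ 0)
  obtain ⟨P, hP, hidem2⟩ := exists_idem_pow (μ 0 ^ K * μ 0 ^ (K - 1) * μ 1)
  refine ⟨seq b K P, μ 0 ^ K * μ 1 * ((μ 0 ^ K * μ 0 ^ (K - 1) * μ 1) ^ P *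
        (μ 0 ^ K * μ 0 ^ (K - 1) * μ 1) ^ (P - 1)), seq_strictMono b K P hb hK hP,
        fun i => seq_pos b K P i hb hP, ?_⟩
  intro B hB
  have hBc : 0 < B.card := Finset.card_pos.mpr hB
  constructor
  · obtain ⟨F, hF1, hF2, _, hF4⟩ := sum_seq_eq b K P hK B
    have hFne : F.Nonempty := by
      rw [← Finset.card_pos, hF2]
      positivity
    rw [hF4]
    exact val_digits_good μ b hb K hK hidem P hP hidem2 F hFne hF1 (by rw [hF2]; exact Dvd.intro _ rfl)
  · obtain ⟨E, hE1, hE2, hE3, _, hE5⟩ := prod_seq_eq b K P hK B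
    have hEne : E.Nonempty := by
      rw [← Finset.card_pos, hE3]
      positivity
    rw [hE5]
    refine val_digits_good μ b hb K hK hidem P hP hidem2 E hEne
      (fun s hs => ⟨hE1 s hs, hE2 hB s hs⟩) ?_
    rw [hE3]
    exact dvd_pow_self _ (by omega)

end Core

section Automaton

variable {σ : Type*}

/-- The transition of a DFA on a letter, as an element of the monoid of self-maps. -/
def trans (M : DFA ℕ σ) (d : ℕ) : Function.End σ := fun s => M.step s d

theorem evalFrom_eq_prod (M : DFA ℕ σ) (l : List ℕ) (s : σ) :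
    M.evalFrom s l = ((l.reverse.map (trans M)).prod : Function.End σ) s := by
  induction l generalizing s with
  | nil => simp [DFA.evalFrom]; rfl
  | cons d l ih =>
    rw [DFA.evalFrom_cons, ih]
    simp only [List.reverse_cons, List.map_append, List.map_cons, List.map_nil, List.prod_append,
      List.prod_singleton]
    rfl

/-- Reading the digit list most significant digit first. -/
theorem eval_reverse_eq (M : DFA ℕ σ) (l : List ℕ) :
    M.eval l.reverse = (val (trans M) l) M.start := by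
  unfold DFA.eval
  rw [evalFrom_eq_prod, List.reverse_reverse]
  rfl

/-- Reading the digit list least significant digit first, via the opposite monoid. -/
theorem eval_eq (M : DFA ℕ σ) (l : List ℕ) :
    M.eval l = (MulOpposite.unop (val (fun d => MulOpposite.op (trans M d)) l)) M.start := by
  unfold DFA.eval
  rw [evalFrom_eq_prod]
  have : (l.reverse.map (trans M)).prod =
      MulOpposite.unop (val (fun d => MulOpposite.op (trans M d)) l) := by
    unfold val
    apply MulOpposite.op_injective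
    rw [MulOpposite.op_unop, MulOpposite.op_list_prod]
    simp [List.map_reverse, Function.comp_def]
  rw [this]

/-- Main theorem of this file: for an automatic colouring there is a strictly increasing
sequence of positive integers all of whose finite sums and products of distinct terms have the
same colour. -/
theorem automatic_seq {C : Type*} [Finite σ] (b : ℕ) (hb : 2 ≤ b) (M : DFA ℕ σ) (out : σ → C)
    (χ : ℕ → C)
    (hχ : (∀ n, 1 ≤ n → χ n = out (M.eval (Nat.digits b n))) ∨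
          (∀ n, 1 ≤ n → χ n = out (M.eval (Nat.digits b n).reverse))) :
    ∃ (a : ℕ → ℕ) (c : C), StrictMono a ∧ (∀ i, 1 ≤ a i) ∧
      ∀ B : Finset ℕ, B.Nonempty → χ (∑ i ∈ B, a i) = c ∧ χ (∏ i ∈ B, a i) = c := by
  have hfin : Finite (Function.End σ) := inferInstanceAs (Finite (σ → σ))
  have hpos : ∀ (a : ℕ → ℕ), (∀ i, 1 ≤ a i) → ∀ B : Finset ℕ, B.Nonempty →
      1 ≤ ∑ i ∈ B, a i ∧ 1 ≤ ∏ i ∈ B, a i := by
    intro a ha B hB
    constructor
    · obtain ⟨i, hi⟩ := hB
      exact le_trans (ha i) (Finset.single_le_sum (f := a) (fun _ _ => Nat.zero_le _) hi)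
    · exact Nat.succ_le_of_lt (Finset.prod_pos (fun i _ => Nat.lt_of_lt_of_le Nat.zero_lt_one (ha i)))
  rcases hχ with h | h
  · have hfin2 : Finite (Function.End σ)ᵐᵒᵖ := Finite.of_equiv _ MulOpposite.opEquiv
    obtain ⟨a, m₀, ha1, ha2, ha3⟩ :=
      core (fun d => MulOpposite.op (trans M d)) b hb
    refine ⟨a, out ((MulOpposite.unop m₀) M.start), ha1, ha2, ?_⟩
    intro B hB
    obtain ⟨h1, h2⟩ := ha3 B hB
    obtain ⟨p1, p2⟩ := hpos a ha2 B hB
    rw [h _ p1, h _ p2, eval_eq, eval_eq, h1, h2]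
    exact ⟨rfl, rfl⟩
  · obtain ⟨a, m₀, ha1, ha2, ha3⟩ := core (trans M) b hb
    refine ⟨a, out (m₀ M.start), ha1, ha2, ?_⟩
    intro B hB
    obtain ⟨h1, h2⟩ := ha3 B hB
    obtain ⟨p1, p2⟩ := hpos a ha2 B hB
    rw [h _ p1, h _ p2, eval_reverse_eq, eval_reverse_eq, h1, h2]
    exact ⟨rfl, rfl⟩

end Automaton

end Vale.Agent.H16.Auto
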